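import Vale.Agent.Lib.P331.Basic

/-!
P331: the expectation lemma for the threshold rule.  With `T` the largest non-loop sample,
the expectation of `T` is at most three times the expectation of the gain `E0` plus twice the
expectation of the gain `EA`.  The proof exchanges the sample and the value of one element
(twice), as in `sum_swap`.
-/

namespace Vale.Agent.Lib.P331

open Finset

noncomputable section

open Classical

variable {E : Type} [Fintype E] [DecidableEq E]

/-- The weighted double sum over sample vectors and value vectors. -/
def helper61_D {Ω : Type} [Fintype Ω] (p : E → Ω → ℝ) (F : (E → Ω) → (E → Ω) → ℝ) : ℝ :=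
  ∑ s : E → Ω, ∑ v : E → Ω, wt p s * wt p v * F s v

theorem helper61_D_mono {Ω : Type} [Fintype Ω] (p : E → Ω → ℝ) (hp : ∀ e ω, 0 ≤ p e ω)
    (F G : (E → Ω) → (E → Ω) → ℝ) (h : ∀ s v, F s v ≤ G s v) :
    helper61_D p F ≤ helper61_D p G := by
  unfold helper61_D
  apply Finset.sum_le_sum
  intro s _
  apply Finset.sum_le_sum
  intro v _
  exact mul_le_mul_of_nonneg_left (h s v) (mul_nonneg (wt_nonneg p hp s) (wt_nonneg p hp v))

theorem helper61_D_congr {Ω : Type} [Fintype Ω] (p : E → Ω → ℝ)
    (F G : (E → Ω) → (E → Ω) → ℝ) (h : ∀ s v, F s v = G s v) :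
    helper61_D p F = helper61_D p G := by
  unfold helper61_D
  apply Finset.sum_congr rfl
  intro s _
  apply Finset.sum_congr rfl
  intro v _
  rw [h s v]

theorem helper61_D_add {Ω : Type} [Fintype Ω] (p : E → Ω → ℝ)
    (F G : (E → Ω) → (E → Ω) → ℝ) :
    helper61_D p (fun s v => F s v + G s v) = helper61_D p F + helper61_D p G := by
  unfold helper61_D
  rw [← Finset.sum_add_distrib]
  apply Finset.sum_congr rfl
  intro s _
  rw [← Finset.sum_add_distrib]
  apply Finset.sum_congr rfl
  intro v _
  ring

theorem helper61_D_sum {Ω : Type} [Fintype Ω] (p : E → Ω → ℝ) (A : Finset E)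
    (F : E → (E → Ω) → (E → Ω) → ℝ) :
    helper61_D p (fun s v => ∑ e ∈ A, F e s v) = ∑ e ∈ A, helper61_D p (F e) := by
  unfold helper61_D
  have h1 : ∀ s : E → Ω, ∑ v : E → Ω, wt p s * wt p v * ∑ e ∈ A, F e s v
      = ∑ e ∈ A, ∑ v : E → Ω, wt p s * wt p v * F e s v := by
    intro s
    simp only [Finset.mul_sum]
    exact Finset.sum_comm
  simp only [h1]
  exact Finset.sum_comm

theorem helper61_D_swap {Ω : Type} [Fintype Ω] (p : E → Ω → ℝ)
    (F : (E → Ω) → (E → Ω) → ℝ) (e : E) :
    helper61_D p F
      = helper61_D p (fun s v => F (Function.update s e (v e)) (Function.update v e (s e))) :=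
  sum_swap p F e

/-- The value of `e` beats all non-loop samples and all other non-loop values. -/
def helper61_Q {Ω : Type} (M : Matroid E) (val : E → Ω → ℝ) (e : E) (s v : E → Ω) : Prop :=
  (∀ f ∈ NL M, f ≠ e → val f (s f) ≤ val e (v e)) ∧ val e (s e) < val e (v e) ∧
    (∀ f ∈ NL M, f ≠ e → val f (v f) < val e (v e))

/-- All other non-loop values are at most the largest non-loop sample. -/
def helper61_Good {Ω : Type} (M : Matroid E) (val : E → Ω → ℝ) (e : E) (s v : E → Ω) : Prop :=
  ∀ g ∈ NL M, g ≠ e → val g (v g) ≤ topS M (vals val s)

/-- The gain when the sample of `e` is the largest sample and beats all non-loop values. -/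
def helper61_h {Ω : Type} (M : Matroid E) (val : E → Ω → ℝ) (e : E) (s v : E → Ω) : ℝ :=
  if (∀ f ∈ NL M, f ≠ e → val f (s f) ≤ val e (s e)) ∧ (∀ f ∈ NL M, val f (v f) < val e (s e))
  then val e (s e) else 0

/-- The bad event for the pair `e`, `g`. -/
def helper61_Bad {Ω : Type} (M : Matroid E) (val : E → Ω → ℝ) (e g : E) (s v : E → Ω) : Prop :=
  helper61_Q M val e s v ∧ topS M (vals val s) < val g (v g) ∧
    ∀ h ∈ NL M, h ≠ e → val h (v h) ≤ val g (v g)

/-- The sample of `g` is strictly the largest non-loop sample. -/
def helper61_Ustr {Ω : Type} (M : Matroid E) (val : E → Ω → ℝ) (g : E) (s : E → Ω) : Prop :=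
  ∀ f ∈ NL M, f ≠ g → val f (s f) < val g (s g)

omit [DecidableEq E] in
theorem helper61_E0_nonneg (M : Matroid E) (S V : E → ℝ) : 0 ≤ E0 M S V := by
  unfold E0
  split_ifs
  · exact topS_nonneg M S
  · exact le_rfl

theorem helper61_h_nonneg {Ω : Type} (M : Matroid E) (val : E → Ω → ℝ)
    (hval : ∀ e ω, 0 ≤ val e ω) (e : E) (s v : E → Ω) : 0 ≤ helper61_h M val e s v := by
  unfold helper61_h
  split_ifs
  · exact hval _ _
  · exact le_rfl

/-- Step 1. -/
theorem helper61_step1 {Ω : Type} (M : Matroid E) (val : E → Ω → ℝ)
    (hval : ∀ e ω, 0 ≤ val e ω) (s v : E → Ω) :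
    topS M (vals val s)
      ≤ E0 M (vals val s) (vals val v) + ∑ e ∈ NL M, helper61_h M val e s v := by
  have hsum : 0 ≤ ∑ e ∈ NL M, helper61_h M val e s v :=
    Finset.sum_nonneg (fun e _ => helper61_h_nonneg M val hval e s v)
  have hE0 := helper61_E0_nonneg M (vals val s) (vals val v)
  by_cases hex : ∃ e ∈ NL M, topS M (vals val s) ≤ vals val v e
  · have h1 : E0 M (vals val s) (vals val v) = topS M (vals val s) := if_pos hex
    linarith
  · push Not at hex
    rcases (NL M).eq_empty_or_nonempty with hempty | hne
    · have hT := topS_eq_zero M (vals val s) hempty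
      linarith
    · obtain ⟨e, he, heq⟩ := exists_eq_topS M (vals val s) (fun e => hval e (s e)) hne
      have heq' : val e (s e) = topS M (vals val s) := heq
      have hhe : helper61_h M val e s v = topS M (vals val s) := by
        unfold helper61_h
        rw [if_pos]
        · exact heq'
        · refine ⟨fun f hf _ => ?_, fun f hf => ?_⟩
          · rw [heq']
            exact le_topS M (vals val s) hf
          · rw [heq']
            exact hex f hf
      have hle : helper61_h M val e s v ≤ ∑ e ∈ NL M, helper61_h M val e s v :=
        Finset.single_le_sum (f := fun e => helper61_h M val e s v)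
          (fun i _ => helper61_h_nonneg M val hval i s v) he
      linarith

/-- Step 2. -/
theorem helper61_step2 {Ω : Type} (M : Matroid E) (val : E → Ω → ℝ) (e : E) (he : e ∈ NL M)
    (s v : E → Ω) :
    helper61_h M val e (Function.update s e (v e)) (Function.update v e (s e))
      = if helper61_Q M val e s v then val e (v e) else 0 := by
  unfold helper61_h
  rw [Function.update_self]
  apply if_congr _ rfl rfl
  unfold helper61_Q
  constructor
  · rintro ⟨h1, h2⟩
    refine ⟨fun f hf hfe => ?_, ?_, fun f hf hfe => ?_⟩
    · have := h1 f hf hfe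
      rwa [Function.update_of_ne hfe] at this
    · have := h2 e he
      rwa [Function.update_self] at this
    · have := h2 f hf
      rwa [Function.update_of_ne hfe] at this
  · rintro ⟨h1, h2, h3⟩
    refine ⟨fun f hf hfe => ?_, fun f hf => ?_⟩
    · rw [Function.update_of_ne hfe]
      exact h1 f hf hfe
    · by_cases hfe : f = e
      · subst hfe
        rw [Function.update_self]
        exact h2
      · rw [Function.update_of_ne hfe]
        exact h3 f hf hfe

/-- Step 3. -/
theorem helper61_step3 {Ω : Type} (M : Matroid E) (val : E → Ω → ℝ)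
    (hval : ∀ e ω, 0 ≤ val e ω) (e : E) (s v : E → Ω) :
    (if helper61_Q M val e s v ∧ ¬ helper61_Good M val e s v then val e (v e) else 0)
      ≤ ∑ g ∈ (NL M).erase e, (if helper61_Bad M val e g s v then val e (v e) else 0) := by
  have hterm : ∀ g, 0 ≤ (if helper61_Bad M val e g s v then val e (v e) else 0) := by
    intro g
    split_ifs
    · exact hval _ _
    · exact le_rfl
  by_cases hc : helper61_Q M val e s v ∧ ¬ helper61_Good M val e s v
  · rw [if_pos hc]
    obtain ⟨hQ, hG⟩ := hc
    unfold helper61_Good at hG
    push Not at hG
    obtain ⟨g0, hg0, hg0e, hlt⟩ := hG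
    have hg0mem : g0 ∈ (NL M).erase e := Finset.mem_erase.mpr ⟨hg0e, hg0⟩
    obtain ⟨g, hg, hmax⟩ :=
      Finset.exists_max_image ((NL M).erase e) (fun g => val g (v g)) ⟨g0, hg0mem⟩
    have hBad : helper61_Bad M val e g s v :=
      ⟨hQ, lt_of_lt_of_le hlt (hmax g0 hg0mem),
        fun h hh hhe => hmax h (Finset.mem_erase.mpr ⟨hhe, hh⟩)⟩
    calc val e (v e) = (if helper61_Bad M val e g s v then val e (v e) else 0) :=
          (if_pos hBad).symm
      _ ≤ ∑ g ∈ (NL M).erase e, (if helper61_Bad M val e g s v then val e (v e) else 0) :=
          Finset.single_le_sum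
            (f := fun g => if helper61_Bad M val e g s v then val e (v e) else 0)
            (fun i _ => hterm i) hg
  · rw [if_neg hc]
    exact Finset.sum_nonneg (fun g _ => hterm g)

/-- Step 4. -/
theorem helper61_step4 {Ω : Type} (M : Matroid E) (val : E → Ω → ℝ)
    (hval : ∀ e ω, 0 ≤ val e ω) (e g : E) (hg : g ∈ NL M) (hge : g ≠ e) (s v : E → Ω) :
    (if helper61_Bad M val e g (Function.update s g (v g)) (Function.update v g (s g))
      then val e (Function.update v g (s g) e) else 0)
      ≤ (if helper61_Q M val e s v ∧ helper61_Good M val e s v ∧ helper61_Ustr M val g s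
          then val e (v e) else 0) := by
  have heg : e ≠ g := Ne.symm hge
  have hve : Function.update v g (s g) e = v e := Function.update_of_ne heg _ _
  have hse : Function.update s g (v g) e = s e := Function.update_of_ne heg _ _
  rw [hve]
  by_cases hB : helper61_Bad M val e g (Function.update s g (v g)) (Function.update v g (s g))
  · rw [if_pos hB]
    have hall : helper61_Q M val e s v ∧ helper61_Good M val e s v ∧ helper61_Ustr M val g s := by
      unfold helper61_Bad helper61_Q at hB
      obtain ⟨⟨h1, h2, h3⟩, h4, h5⟩ := hB
      rw [hve] at h1 h2 h3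
      rw [hse] at h2
      rw [Function.update_self] at h4 h5
      -- samples after the exchange are below the new top sample
      have htop : ∀ f ∈ NL M, val f (Function.update s g (v g) f)
          ≤ topS M (vals val (Function.update s g (v g))) :=
        fun f hf => le_topS M (vals val (Function.update s g (v g))) hf
      have hVg : val g (v g) < val g (s g) := by
        have := htop g hg
        rw [Function.update_self] at this
        exact lt_of_le_of_lt this h4
      have hU : helper61_Ustr M val g s := by
        intro f hf hfg
        have := htop f hf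
        rw [Function.update_of_ne hfg] at this
        exact lt_of_le_of_lt this h4
      have hT : topS M (vals val s) = val g (s g) := by
        apply le_antisymm
        · apply topS_le M (vals val s) (hval _ _)
          intro f hf
          by_cases hfg : f = g
          · subst hfg
            exact le_rfl
          · exact le_of_lt (hU f hf hfg)
        · exact le_topS M (vals val s) hg
      have hSgVe : val g (s g) < val e (v e) := by
        have := h3 g hg hge
        rwa [Function.update_self] at this
      refine ⟨⟨fun f hf hfe => ?_, h2, fun f hf hfe => ?_⟩, fun h hh hhe => ?_, hU⟩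
      · by_cases hfg : f = g
        · subst hfg
          exact le_of_lt hSgVe
        · have := h1 f hf hfe
          rwa [Function.update_of_ne hfg] at this
      · by_cases hfg : f = g
        · subst hfg
          exact lt_trans hVg hSgVe
        · have := h3 f hf hfe
          rwa [Function.update_of_ne hfg] at this
      · rw [hT]
        by_cases hhg : h = g
        · subst hhg
          exact le_of_lt hVg
        · have := h5 h hh hhe
          rwa [Function.update_of_ne hhg] at this
    rw [if_pos hall]
  · rw [if_neg hB]
    split_ifs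
    · exact hval _ _
    · exact le_rfl

/-- Step 5. -/
theorem helper61_step5 {Ω : Type} (M : Matroid E) (val : E → Ω → ℝ)
    (hval : ∀ e ω, 0 ≤ val e ω) (e : E) (s v : E → Ω) :
    ∑ g ∈ (NL M).erase e,
        (if helper61_Q M val e s v ∧ helper61_Good M val e s v ∧ helper61_Ustr M val g s
          then val e (v e) else 0)
      ≤ (if helper61_Q M val e s v ∧ helper61_Good M val e s v then val e (v e) else 0) := by
  by_cases hc : helper61_Q M val e s v ∧ helper61_Good M val e s v
  · rw [if_pos hc]
    have h1 : ∑ g ∈ (NL M).erase e,
        (if helper61_Q M val e s v ∧ helper61_Good M val e s v ∧ helper61_Ustr M val g s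
          then val e (v e) else 0)
        = ∑ g ∈ (NL M).erase e, (if helper61_Ustr M val g s then val e (v e) else 0) := by
      apply Finset.sum_congr rfl
      intro g _
      exact if_congr ⟨fun h => h.2.2, fun h => ⟨hc.1, hc.2, h⟩⟩ rfl rfl
    rw [h1, Finset.sum_ite, Finset.sum_const_zero, add_zero, Finset.sum_const, nsmul_eq_mul]
    have hcard : (((NL M).erase e).filter (fun g => helper61_Ustr M val g s)).card ≤ 1 := by
      apply Finset.card_le_one.mpr
      intro a ha b hb
      by_contra hab
      obtain ⟨ha1, ha2⟩ := Finset.mem_filter.mp ha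
      obtain ⟨hb1, hb2⟩ := Finset.mem_filter.mp hb
      have haN : a ∈ NL M := Finset.mem_of_mem_erase ha1
      have hbN : b ∈ NL M := Finset.mem_of_mem_erase hb1
      have hlt1 : val b (s b) < val a (s a) := ha2 b hbN (fun h => hab h.symm)
      have hlt2 : val a (s a) < val b (s b) := hb2 a haN hab
      exact lt_asymm hlt1 hlt2
    have hcard' : ((((NL M).erase e).filter (fun g => helper61_Ustr M val g s)).card : ℝ) ≤ 1 := by
      exact_mod_cast hcard
    calc ((((NL M).erase e).filter (fun g => helper61_Ustr M val g s)).card : ℝ) * val e (v e)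
        ≤ 1 * val e (v e) := mul_le_mul_of_nonneg_right hcard' (hval _ _)
      _ = val e (v e) := one_mul _
  · rw [if_neg hc]
    apply le_of_eq
    apply Finset.sum_eq_zero
    intro g _
    rw [if_neg]
    intro h
    exact hc ⟨h.1, h.2.1⟩

/-- Step 6. -/
theorem helper61_step6 {Ω : Type} (M : Matroid E) (val : E → Ω → ℝ)
    (hval : ∀ e ω, 0 ≤ val e ω) (s v : E → Ω) :
    ∑ e ∈ NL M, (if helper61_Q M val e s v ∧ helper61_Good M val e s v then val e (v e) else 0)
      ≤ E0 M (vals val s) (vals val v) + EA M (vals val s) (vals val v) := by
  have hE0 := helper61_E0_nonneg M (vals val s) (vals val v)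
  have hEAterm : ∀ e, 0 ≤ (if topS M (vals val s) < vals val v e ∧
      ∀ e' ∈ NL M, e' ≠ e → vals val v e' ≤ topS M (vals val s) then vals val v e else 0) := by
    intro e
    split_ifs
    · exact hval _ _
    · exact le_rfl
  have hEA : 0 ≤ EA M (vals val s) (vals val v) := by
    unfold EA
    exact Finset.sum_nonneg (fun e _ => hEAterm e)
  by_cases hex : ∃ e0 ∈ NL M, helper61_Q M val e0 s v ∧ helper61_Good M val e0 s v
  · obtain ⟨e0, he0, hQ, hG⟩ := hex
    have hsum : ∑ e ∈ NL M,
        (if helper61_Q M val e s v ∧ helper61_Good M val e s v then val e (v e) else 0)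
        = val e0 (v e0) := by
      rw [Finset.sum_eq_single_of_mem e0 he0]
      · rw [if_pos ⟨hQ, hG⟩]
      · intro b hb hbe
        rw [if_neg]
        rintro ⟨hQb, _⟩
        exact lt_asymm (hQ.2.2 b hb hbe) (hQb.2.2 e0 he0 (Ne.symm hbe))
    rw [hsum]
    have hTle : topS M (vals val s) ≤ val e0 (v e0) := by
      apply topS_le M (vals val s) (hval _ _)
      intro f hf
      by_cases hfe : f = e0
      · subst hfe
        exact le_of_lt hQ.2.1
      · exact hQ.1 f hf hfe
    rcases eq_or_lt_of_le hTle with heq | hlt
    · have h1 : E0 M (vals val s) (vals val v) = topS M (vals val s) :=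
        if_pos ⟨e0, he0, hTle⟩
      linarith
    · have hterm : (if topS M (vals val s) < vals val v e0 ∧
          ∀ e' ∈ NL M, e' ≠ e0 → vals val v e' ≤ topS M (vals val s) then vals val v e0 else 0)
          = val e0 (v e0) := if_pos ⟨hlt, hG⟩
      have h2 : val e0 (v e0) ≤ EA M (vals val s) (vals val v) := by
        unfold EA
        rw [← hterm]
        exact Finset.single_le_sum
          (f := fun e => if topS M (vals val s) < vals val v e ∧
            ∀ e' ∈ NL M, e' ≠ e → vals val v e' ≤ topS M (vals val s) then vals val v e else 0)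
          (fun i _ => hEAterm i) he0
      linarith
  · have hzero : ∑ e ∈ NL M,
        (if helper61_Q M val e s v ∧ helper61_Good M val e s v then val e (v e) else 0) = 0 :=
      Finset.sum_eq_zero (fun e he => if_neg (fun h => hex ⟨e, he, h⟩))
    rw [hzero]
    linarith

/-- Steps 3 to 5 in expectation: the bad part is at most the good part. -/
theorem helper61_bad_le_good {Ω : Type} [Fintype Ω] (M : Matroid E) (p val : E → Ω → ℝ)
    (hp : ∀ e ω, 0 ≤ p e ω) (hval : ∀ e ω, 0 ≤ val e ω) (e : E) :
    helper61_D p (fun s v =>
        if helper61_Q M val e s v ∧ ¬ helper61_Good M val e s v then val e (v e) else 0)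
      ≤ helper61_D p (fun s v =>
        if helper61_Q M val e s v ∧ helper61_Good M val e s v then val e (v e) else 0) := by
  calc helper61_D p (fun s v =>
        if helper61_Q M val e s v ∧ ¬ helper61_Good M val e s v then val e (v e) else 0)
      ≤ helper61_D p (fun s v => ∑ g ∈ (NL M).erase e,
          (if helper61_Bad M val e g s v then val e (v e) else 0)) :=
        helper61_D_mono p hp _ _ (fun s v => helper61_step3 M val hval e s v)
    _ = ∑ g ∈ (NL M).erase e, helper61_D p (fun s v =>
          if helper61_Bad M val e g s v then val e (v e) else 0) :=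
        helper61_D_sum p ((NL M).erase e)
          (fun g s v => if helper61_Bad M val e g s v then val e (v e) else 0)
    _ ≤ ∑ g ∈ (NL M).erase e, helper61_D p (fun s v =>
          if helper61_Q M val e s v ∧ helper61_Good M val e s v ∧ helper61_Ustr M val g s
            then val e (v e) else 0) := by
        apply Finset.sum_le_sum
        intro g hg
        have hgN : g ∈ NL M := Finset.mem_of_mem_erase hg
        have hge : g ≠ e := Finset.ne_of_mem_erase hg
        rw [helper61_D_swap p
          (fun s v => if helper61_Bad M val e g s v then val e (v e) else 0) g]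
        exact helper61_D_mono p hp _ _ (fun s v => helper61_step4 M val hval e g hgN hge s v)
    _ = helper61_D p (fun s v => ∑ g ∈ (NL M).erase e,
          (if helper61_Q M val e s v ∧ helper61_Good M val e s v ∧ helper61_Ustr M val g s
            then val e (v e) else 0)) :=
        (helper61_D_sum p ((NL M).erase e)
          (fun g s v =>
            if helper61_Q M val e s v ∧ helper61_Good M val e s v ∧ helper61_Ustr M val g s
              then val e (v e) else 0)).symm
    _ ≤ helper61_D p (fun s v =>
        if helper61_Q M val e s v ∧ helper61_Good M val e s v then val e (v e) else 0) :=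
        helper61_D_mono p hp _ _ (fun s v => helper61_step5 M val hval e s v)

/-- The expectation of the `Q` part is at most twice that of its good part. -/
theorem helper61_Q_le_two_good {Ω : Type} [Fintype Ω] (M : Matroid E) (p val : E → Ω → ℝ)
    (hp : ∀ e ω, 0 ≤ p e ω) (hval : ∀ e ω, 0 ≤ val e ω) (e : E) :
    helper61_D p (fun s v => if helper61_Q M val e s v then val e (v e) else 0)
      ≤ 2 * helper61_D p (fun s v =>
        if helper61_Q M val e s v ∧ helper61_Good M val e s v then val e (v e) else 0) := by
  have hsplit : helper61_D p (fun s v => if helper61_Q M val e s v then val e (v e) else 0)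
      = helper61_D p (fun s v =>
          if helper61_Q M val e s v ∧ helper61_Good M val e s v then val e (v e) else 0)
        + helper61_D p (fun s v =>
          if helper61_Q M val e s v ∧ ¬ helper61_Good M val e s v then val e (v e) else 0) := by
    rw [← helper61_D_add]
    apply helper61_D_congr
    intro s v
    by_cases hQ : helper61_Q M val e s v
    · by_cases hG : helper61_Good M val e s v
      · rw [if_pos hQ, if_pos ⟨hQ, hG⟩, if_neg (fun h => h.2 hG), add_zero]
      · rw [if_pos hQ, if_neg (fun h => hG h.2), if_pos ⟨hQ, hG⟩, zero_add]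
    · rw [if_neg hQ, if_neg (fun h => hQ h.1), if_neg (fun h => hQ h.1), add_zero]
  have hbad := helper61_bad_le_good M p val hp hval e
  linarith

/-- **The expectation lemma (L2).** -/
theorem exp_T_le (M : Matroid E) {Ω : Type} [Fintype Ω] (p val : E → Ω → ℝ)
    (hp : ∀ e ω, 0 ≤ p e ω) (hval : ∀ e ω, 0 ≤ val e ω) :
    ∑ s : E → Ω, ∑ v : E → Ω, wt p s * wt p v * topS M (vals val s)
      ≤ 3 * ∑ s : E → Ω, ∑ v : E → Ω, wt p s * wt p v * E0 M (vals val s) (vals val v)
        + 2 * ∑ s : E → Ω, ∑ v : E → Ω, wt p s * wt p v * EA M (vals val s) (vals val v) := by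
  show helper61_D p (fun s _ => topS M (vals val s))
      ≤ 3 * helper61_D p (fun s v => E0 M (vals val s) (vals val v))
        + 2 * helper61_D p (fun s v => EA M (vals val s) (vals val v))
  -- step 1 in expectation
  have h1 : helper61_D p (fun s _ => topS M (vals val s))
      ≤ helper61_D p (fun s v => E0 M (vals val s) (vals val v))
        + ∑ e ∈ NL M, helper61_D p (helper61_h M val e) := by
    calc helper61_D p (fun s _ => topS M (vals val s))
        ≤ helper61_D p (fun s v => E0 M (vals val s) (vals val v)
            + ∑ e ∈ NL M, helper61_h M val e s v) :=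
          helper61_D_mono p hp _ _ (fun s v => helper61_step1 M val hval s v)
      _ = helper61_D p (fun s v => E0 M (vals val s) (vals val v))
            + helper61_D p (fun s v => ∑ e ∈ NL M, helper61_h M val e s v) :=
          helper61_D_add p _ _
      _ = helper61_D p (fun s v => E0 M (vals val s) (vals val v))
            + ∑ e ∈ NL M, helper61_D p (helper61_h M val e) := by
          rw [helper61_D_sum p (NL M) (fun e s v => helper61_h M val e s v)]
  -- step 2 and steps 3 to 5 in expectation
  have h2 : ∑ e ∈ NL M, helper61_D p (helper61_h M val e)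
      ≤ ∑ e ∈ NL M, 2 * helper61_D p (fun s v =>
          if helper61_Q M val e s v ∧ helper61_Good M val e s v then val e (v e) else 0) := by
    apply Finset.sum_le_sum
    intro e he
    rw [helper61_D_swap p (helper61_h M val e) e]
    rw [helper61_D_congr p _ (fun s v => if helper61_Q M val e s v then val e (v e) else 0)
      (fun s v => helper61_step2 M val e he s v)]
    exact helper61_Q_le_two_good M p val hp hval e
  -- step 6 in expectation
  have h3 : ∑ e ∈ NL M, helper61_D p (fun s v =>
        if helper61_Q M val e s v ∧ helper61_Good M val e s v then val e (v e) else 0)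
      ≤ helper61_D p (fun s v => E0 M (vals val s) (vals val v))
        + helper61_D p (fun s v => EA M (vals val s) (vals val v)) := by
    rw [← helper61_D_sum p (NL M) (fun e s v =>
      if helper61_Q M val e s v ∧ helper61_Good M val e s v then val e (v e) else 0)]
    rw [← helper61_D_add]
    exact helper61_D_mono p hp _ _ (fun s v => helper61_step6 M val hval s v)
  rw [← Finset.mul_sum] at h2
  linarith

end

end Vale.Agent.Lib.P331
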