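import Vale.Agent.Lib.P331.Basic

/-!
P331: pointwise facts about the threshold rule `thrRule` (independent backup copy of the
three lemmas of the rule file; the three main statements live in the sub-namespace `H61`).

* `H61.thrRule_indep` : the accepted set is always independent.
* `H61.thrRule_strict_ge` : in the strict mode, a unique non-loop element above the largest
  non-loop sample is accepted.
* `H61.thrRule_weak_ge` : in a weak mode the accepted set is at least as large as the part
  above the threshold of any independent set.
-/

namespace Vale.Agent.Lib.P331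

open Finset

noncomputable section

open Classical

variable {E : Type} [Fintype E] [DecidableEq E]

/-- The acceptance condition of the threshold rule. -/
def helper61_cond (M : Matroid E) (m : ThrMem E) (a : E) (x : ℝ) : Prop :=
  (if m.strict then m.thr < x else m.thr ≤ x) ∧ M.Indep (insert a (m.acc : Set E))

omit [Fintype E] in
theorem helper61_step_pos (M : Matroid E) (m : ThrMem E) (a : E) (x : ℝ)
    (h : helper61_cond M m a x) :
    thrStep M m a x = (true, ⟨m.strict, m.thr, insert a m.acc⟩) := by
  unfold thrStep
  exact if_pos h

omit [Fintype E] in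
theorem helper61_step_neg (M : Matroid E) (m : ThrMem E) (a : E) (x : ℝ)
    (h : ¬ helper61_cond M m a x) : thrStep M m a x = (false, m) := by
  unfold thrStep
  exact if_neg h

theorem helper61_go_nil (M : Matroid E) (J : ℕ) (V : E → ℝ) (m : ThrMem E) :
    (thrRule M J).go V [] m = ∅ := rfl

theorem helper61_go_cons (M : Matroid E) (J : ℕ) (V : E → ℝ) (a : E) (l : List E)
    (m : ThrMem E) :
    (thrRule M J).go V (a :: l) m
      = if (thrStep M m a (V a)).1 then insert a ((thrRule M J).go V l (thrStep M m a (V a)).2)
        else (thrRule M J).go V l (thrStep M m a (V a)).2 := rfl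

theorem helper61_go_cons_pos (M : Matroid E) (J : ℕ) (V : E → ℝ) (a : E) (l : List E)
    (m : ThrMem E) (h : helper61_cond M m a (V a)) :
    (thrRule M J).go V (a :: l) m
      = insert a ((thrRule M J).go V l ⟨m.strict, m.thr, insert a m.acc⟩) := by
  rw [helper61_go_cons, helper61_step_pos M m a (V a) h]
  rfl

theorem helper61_go_cons_neg (M : Matroid E) (J : ℕ) (V : E → ℝ) (a : E) (l : List E)
    (m : ThrMem E) (h : ¬ helper61_cond M m a (V a)) :
    (thrRule M J).go V (a :: l) m = (thrRule M J).go V l m := by
  rw [helper61_go_cons, helper61_step_neg M m a (V a) h]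
  rfl

theorem helper61_run_eq (M : Matroid E) (J : ℕ) (S V : E → ℝ) (r : Fin (J + 10))
    (l : List E) :
    (thrRule M J).run S r V l
      = (thrRule M J).go V l
          (⟨decide (r.val < 4), topS M S / 2 ^ thrExp r.val, ∅⟩ : ThrMem E) := rfl

omit [Fintype E] in
theorem helper61_union_insert (a : E) (A B : Finset E) :
    A ∪ insert a B = insert a A ∪ B := by
  rw [Finset.union_insert, Finset.insert_union]

/-- (i) The accepted set stays independent. -/
theorem helper61_go_indep (M : Matroid E) (J : ℕ) (V : E → ℝ) (l : List E) (m : ThrMem E)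
    (h : M.Indep (m.acc : Set E)) :
    M.Indep ((m.acc ∪ (thrRule M J).go V l m : Finset E) : Set E) := by
  induction l generalizing m with
  | nil =>
    rw [helper61_go_nil, Finset.union_empty]
    exact h
  | cons a l ih =>
    by_cases hc : helper61_cond M m a (V a)
    · rw [helper61_go_cons_pos M J V a l m hc, helper61_union_insert]
      have hind : M.Indep ((insert a m.acc : Finset E) : Set E) := by
        rw [Finset.coe_insert]
        exact hc.2
      exact ih ⟨m.strict, m.thr, insert a m.acc⟩ hind
    · rw [helper61_go_cons_neg M J V a l m hc]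
      exact ih m h

/-- (ii) Every accepted element passed the test. -/
theorem helper61_go_test (M : Matroid E) (J : ℕ) (V : E → ℝ) (l : List E) (m : ThrMem E) :
    ∀ x ∈ (thrRule M J).go V l m, (if m.strict then m.thr < V x else m.thr ≤ V x) := by
  induction l generalizing m with
  | nil =>
    intro x hx
    rw [helper61_go_nil] at hx
    exact absurd hx (Finset.notMem_empty x)
  | cons a l ih =>
    intro x hx
    by_cases hc : helper61_cond M m a (V a)
    · rw [helper61_go_cons_pos M J V a l m hc] at hx
      rcases Finset.mem_insert.mp hx with hxa | hx'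
      · rw [hxa]
        exact hc.1
      · exact ih ⟨m.strict, m.thr, insert a m.acc⟩ x hx'
    · rw [helper61_go_cons_neg M J V a l m hc] at hx
      exact ih m x hx

/-- (iii) Maximality: an element that arrives, passes the test and keeps the final set
independent is in the final set. -/
theorem helper61_go_max (M : Matroid E) (J : ℕ) (V : E → ℝ) (e : E) (l : List E)
    (m : ThrMem E) (hel : e ∈ l) (htest : if m.strict then m.thr < V e else m.thr ≤ V e)
    (hind : M.Indep (insert e ((m.acc ∪ (thrRule M J).go V l m : Finset E) : Set E))) :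
    e ∈ m.acc ∪ (thrRule M J).go V l m := by
  induction l generalizing m with
  | nil => exact absurd hel (List.not_mem_nil)
  | cons a l ih =>
    by_cases hc : helper61_cond M m a (V a)
    · rw [helper61_go_cons_pos M J V a l m hc, helper61_union_insert] at hind ⊢
      rcases List.mem_cons.mp hel with hea | hel'
      · rw [hea]
        exact Finset.mem_union_left _ (Finset.mem_insert_self _ _)
      · exact ih ⟨m.strict, m.thr, insert a m.acc⟩ hel' htest hind
    · rw [helper61_go_cons_neg M J V a l m hc] at hind ⊢
      rcases List.mem_cons.mp hel with hea | hel'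
      · exfalso
        apply hc
        rw [← hea]
        refine ⟨htest, hind.subset ?_⟩
        exact Set.insert_subset_insert (Finset.coe_subset.mpr Finset.subset_union_left)
      · exact ih m hel' htest hind

namespace H61

theorem thrRule_indep (M : Matroid E) (J : ℕ) (S V : E → ℝ) (r : Fin (J + 10)) (l : List E) :
    M.Indep ((thrRule M J).run S r V l : Set E) := by
  rw [helper61_run_eq]
  have h := helper61_go_indep M J V l
    (⟨decide (r.val < 4), topS M S / 2 ^ thrExp r.val, ∅⟩ : ThrMem E)
    (by
      show M.Indep ((∅ : Finset E) : Set E)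
      rw [Finset.coe_empty]
      exact M.empty_indep)
  rw [show (⟨decide (r.val < 4), topS M S / 2 ^ thrExp r.val, ∅⟩ : ThrMem E).acc = ∅ from rfl,
    Finset.empty_union] at h
  exact h

theorem thrRule_strict_ge (M : Matroid E) (J : ℕ) (S V : E → ℝ) (hV : ∀ e, 0 ≤ V e)
    (r : Fin (J + 10)) (hr : r.val < 4) (l : List E) (e : E) (he : e ∈ NL M) (hel : e ∈ l)
    (h1 : topS M S < V e) (h2 : ∀ e' ∈ NL M, e' ≠ e → V e' ≤ topS M S) :
    V e ≤ ∑ x ∈ (thrRule M J).run S r V l, V x := by
  rw [helper61_run_eq]
  have hdec : decide (r.val < 4) = true := decide_eq_true hr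
  have hexp : thrExp r.val = 0 := by
    unfold thrExp
    omega
  rw [hdec, hexp, pow_zero, div_one]
  have he' : M.Indep {e} := by
    unfold NL at he
    exact (Finset.mem_filter.mp he).2
  have hmem : e ∈ (thrRule M J).go V l (⟨true, topS M S, ∅⟩ : ThrMem E) := by
    induction l with
    | nil => exact absurd hel (List.not_mem_nil)
    | cons a l ih =>
      by_cases hae : a = e
      · rw [hae]
        have hc : helper61_cond M (⟨true, topS M S, ∅⟩ : ThrMem E) e (V e) := by
          refine ⟨?_, ?_⟩
          · simpa using h1
          · show M.Indep (insert e ((∅ : Finset E) : Set E))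
            rw [Finset.coe_empty, insert_empty_eq]
            exact he'
        rw [helper61_go_cons_pos M J V e l _ hc]
        exact Finset.mem_insert_self _ _
      · have hc : ¬ helper61_cond M (⟨true, topS M S, ∅⟩ : ThrMem E) a (V a) := by
          rintro ⟨ht, hind⟩
          have ht' : topS M S < V a := by simpa using ht
          have hind' : M.Indep {a} := by
            have : M.Indep (insert a ((∅ : Finset E) : Set E)) := hind
            rwa [Finset.coe_empty, insert_empty_eq] at this
          have haN : a ∈ NL M := by
            unfold NL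
            exact Finset.mem_filter.mpr ⟨Finset.mem_univ _, hind'⟩
          exact absurd ht' (not_lt.mpr (h2 a haN hae))
        rw [helper61_go_cons_neg M J V a l _ hc]
        apply ih
        rcases List.mem_cons.mp hel with h | h
        · exact absurd h.symm hae
        · exact h
  exact Finset.single_le_sum (f := fun x => V x) (fun x _ => hV x) hmem

theorem thrRule_weak_ge (M : Matroid E) (J : ℕ) (S V : E → ℝ) (hV : ∀ e, 0 ≤ V e)
    (r : Fin (J + 10)) (hr : 4 ≤ r.val) (l : List E) (hl : ∀ e, e ∈ l)
    (I : Finset E) (hI : M.Indep (I : Set E)) :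
    topS M S / 2 ^ thrExp r.val *
        ((I.filter fun e => topS M S / 2 ^ thrExp r.val ≤ V e).card : ℝ)
      ≤ ∑ x ∈ (thrRule M J).run S r V l, V x := by
  have _hV0 := hV
  rw [helper61_run_eq]
  have hdec : decide (r.val < 4) = false := decide_eq_false (by omega)
  rw [hdec]
  have hp : 0 ≤ topS M S / 2 ^ thrExp r.val :=
    div_nonneg (topS_nonneg M S) (pow_nonneg (by norm_num) _)
  generalize topS M S / 2 ^ thrExp r.val = p at hp ⊢
  have hmacc : (⟨false, p, ∅⟩ : ThrMem E).acc = ∅ := rfl
  have hI' : M.Indep ((I.filter fun e => p ≤ V e : Finset E) : Set E) :=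
    hI.subset (Finset.coe_subset.mpr (Finset.filter_subset _ _))
  have hAind : M.Indep (((thrRule M J).go V l (⟨false, p, ∅⟩ : ThrMem E) : Finset E) : Set E) := by
    have h := helper61_go_indep M J V l (⟨false, p, ∅⟩ : ThrMem E)
      (by
        show M.Indep ((∅ : Finset E) : Set E)
        rw [Finset.coe_empty]
        exact M.empty_indep)
    rw [hmacc, Finset.empty_union] at h
    exact h
  have hcard : (I.filter fun e => p ≤ V e).card
      ≤ ((thrRule M J).go V l (⟨false, p, ∅⟩ : ThrMem E)).card := by
    by_contra hlt
    push Not at hlt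
    obtain ⟨e, heI, heA, hins⟩ := hAind.augment_finset hI' hlt
    have hmem := helper61_go_max M J V e l (⟨false, p, ∅⟩ : ThrMem E) (hl e)
      (by simpa using (Finset.mem_filter.mp heI).2)
      (by
        rw [hmacc, Finset.empty_union]
        exact hins)
    rw [hmacc, Finset.empty_union] at hmem
    exact heA hmem
  have hge : ∀ x ∈ (thrRule M J).go V l (⟨false, p, ∅⟩ : ThrMem E), p ≤ V x := by
    intro x hx
    have := helper61_go_test M J V l (⟨false, p, ∅⟩ : ThrMem E) x hx
    simpa using this
  have hcard' : (((I.filter fun e => p ≤ V e).card : ℕ) : ℝ)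
      ≤ ((((thrRule M J).go V l (⟨false, p, ∅⟩ : ThrMem E)).card : ℕ) : ℝ) := by
    exact_mod_cast hcard
  calc p * ((I.filter fun e => p ≤ V e).card : ℝ)
      ≤ p * (((thrRule M J).go V l (⟨false, p, ∅⟩ : ThrMem E)).card : ℝ) :=
        mul_le_mul_of_nonneg_left hcard' hp
    _ = ∑ _x ∈ (thrRule M J).go V l (⟨false, p, ∅⟩ : ThrMem E), p := by
        rw [Finset.sum_const, nsmul_eq_mul, mul_comm]
    _ ≤ ∑ x ∈ (thrRule M J).go V l (⟨false, p, ∅⟩ : ThrMem E), V x :=
        Finset.sum_le_sum hge

end H61

end

end Vale.Agent.Lib.P331
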